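import Vale.Agent.P225.Assembly.Bounds.Suffix
import Vale.Agent.P225.Assembly.Rates

/-!
P225, assembly, bounds: the residual factors against the band, and first order of the slot response.
-/

noncomputable section

namespace Vale.Agent.P225.Bds

open Matrix SU2 Set MeasureTheory Filter
open scoped ComplexOrder Matrix.Norms.L2Operator Topology

attribute [local irreducible] band

theorem norm_mul_rect {a b c : Type} [Fintype a] [Fintype b] [Fintype c] [DecidableEq a]
    [DecidableEq b] [DecidableEq c] (A : Matrix a b ℂ) (B : Matrix b c ℂ) {u v : ℝ} (hA : ‖A‖ ≤ u)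
    (hB : ‖B‖ ≤ v) : ‖A * B‖ ≤ u * v :=
  (Matrix.l2_opNorm_mul A B).trans
    (mul_le_mul hA hB (norm_nonneg _) ((norm_nonneg A).trans hA))

variable {d : PathData} {r₂ β φ₀ : ℝ}

/-- The weight of a jump is bounded. -/
theorem segErr_factor (hd : d.Good r₂ β φ₀) {p : Param} (hp : InBox d p) (K i : ℕ) {l : ℕ}
    (hl : l < (d.plan (d.j₀ + i)).length) :
    ∃ G : Op (PntK (K + 40)), ‖G‖ ≤ 1 ∧ segErr d r₂ β p K i l =
      G * (truncW d r₂ β p (K + 40) (segStart d i l) -
        freeDiag d r₂ β (K + 40) (segStart d i l)) := by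
  obtain ⟨-, -, h3, h4, h5⟩ := Trunc.seg_times hd hl
  have hle : segStart d i l ≤ segEnd d i l := Trunc.seg_le hd hl
  refine ⟨_, (segG_norm_le hle (c := 49 / 10) (by norm_num) (fun u hu => ?_) (fun u hu => ?_)
    fun u hu => ?_).trans (by norm_num), rfl⟩
  · rw [abs_of_pos (Real.exp_pos _)]
    refine Real.exp_le_exp.2 ?_
    have hi := intervalIntegral.integral_mono_on hu.1
      (intervalIntegrable_const : IntervalIntegrable (fun _ => (49 / 10 : ℝ)) volume _ _)
      ((Trunc.pathDamp_cont hd).intervalIntegrable _ _)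
      fun w hw => Trunc.damp_ge hd (h4.trans hw.1)
    rw [intervalIntegral.integral_const, smul_eq_mul] at hi
    linarith
  · exact truncBack_norm_le hd hp _ h5 hu.1
  · rw [Matrix.l2_opNorm_conjTranspose]
    exact truncBack_norm_le hd hp _ h5 hu.1

/-- A small correction to first order. -/
theorem response_first_order {c : ClusterData} {B ρ : ℝ} (hB : c.C ≤ B) (hn : (c.nParts : ℝ) ≤ B)
    (w : offSpace) (hw : ‖(w : Matrix BPt BPt ℂ)‖ ≤ ρ) (hsmall : B ^ 2 * ρ ≤ 1) :
    ‖(List.ofFn fun e => 1 + ((c.parts e w : offSpace) : Matrix BPt BPt ℂ)).prod -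
        (1 + (w : Matrix BPt BPt ℂ))‖ ≤ B ^ 4 * ρ ^ 2 ∧
      ‖(List.ofFn fun e => 1 + ((c.parts e w : offSpace) : Matrix BPt BPt ℂ)).prod‖ ≤ 3 := by
  have := bPt_nonempty
  set f : Fin c.nParts → Matrix BPt BPt ℂ := fun e => ((c.parts e w : offSpace) : Matrix BPt BPt ℂ)
  have hρ : 0 ≤ ρ := (norm_nonneg _).trans hw
  have hs : ((List.ofFn f).map norm).sum ≤ B ^ 2 * ρ := by
    rw [List.map_ofFn, List.sum_ofFn]
    calc ∑ e, ‖f e‖ ≤ ∑ _e : Fin c.nParts, B * ρ := Finset.sum_le_sum fun e _ =>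
          (c.parts_le e w).trans (mul_le_mul hB hw (norm_nonneg _) (c.C_pos.le.trans hB))
      _ = (c.nParts : ℝ) * (B * ρ) := by simp
      _ ≤ B * (B * ρ) := by
          exact mul_le_mul_of_nonneg_right hn (mul_nonneg (c.C_pos.le.trans hB) hρ)
      _ = _ := by ring
  have hsum : (List.ofFn f).sum = (w : Matrix BPt BPt ℂ) := by
    rw [List.sum_ofFn]
    have e := LinearMap.congr_fun c.parts_sum w
    rw [LinearMap.sum_apply, LinearMap.id_apply] at e
    conv_rhs => rw [← e]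
    simp [f]
  have h := norm_prod_sub_sum_le (List.ofFn f) (hs.trans hsmall)
  rw [List.map_ofFn, hsum] at h
  have h0 : 0 ≤ ((List.ofFn f).map norm).sum := List.sum_nonneg (by simp)
  have h2 : ((List.ofFn f).map norm).sum ^ 2 ≤ (B ^ 2 * ρ) ^ 2 := pow_le_pow_left₀ h0 hs 2
  have e1 : (List.ofFn fun e => 1 + f e).prod = (List.ofFn ((1 + ·) ∘ f)).prod := rfl
  refine ⟨?_, ?_⟩
  · rw [e1]
    exact (h.trans h2).trans_eq (by ring)
  · rw [e1]
    have hP : ‖(List.ofFn ((1 + ·) ∘ f)).prod - (1 + (w : Matrix BPt BPt ℂ))‖ ≤ 1 :=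
      (h.trans h2).trans (pow_le_one₀ (mul_nonneg (sq_nonneg B) hρ) hsmall)
    have hw1 : ‖(w : Matrix BPt BPt ℂ)‖ ≤ 1 := by
      rw [← hsum]
      exact ((List.le_sum_of_subadditive norm norm_zero.le (fun a b => norm_add_le a b) _).trans
        hs).trans hsmall
    calc ‖(List.ofFn ((1 + ·) ∘ f)).prod‖
        = ‖((List.ofFn ((1 + ·) ∘ f)).prod - (1 + (w : Matrix BPt BPt ℂ))) +
            (1 + (w : Matrix BPt BPt ℂ))‖ := by rw [sub_add_cancel]
      _ ≤ 1 + (1 + 1) := (norm_add_le _ _).trans (add_le_add hP ((norm_add_le _ _).trans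
            (add_le_add norm_one_matrix_le hw1)))
      _ = 3 := by norm_num

theorem corrSize_sq (j : ℕ) : corrSize j ^ 2 = errSize j := by
  rw [corrSize, errSize, ← Real.exp_nat_mul]
  ring_nf

theorem tendsto_corrSize : Tendsto corrSize atTop (𝓝 0) :=
  Real.tendsto_exp_atBot.comp (tendsto_neg_atTop_atBot.comp
    ((tendsto_pow_atTop (by norm_num : (4 : ℕ) ≠ 0)).comp tendsto_natCast_atTop_atTop))

end Vale.Agent.P225.Bds
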