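import Vale.Agent.P225.Assembly.Ideal

/-!
P225, assembly, bounds: the intended segments keep the band and the other points apart.
-/

noncomputable section

namespace Vale.Agent.P225.Bds

open Matrix SU2 NormedSpace
open scoped ComplexOrder Matrix.Norms.L2Operator

attribute [local irreducible] band

theorem segProd_self {M : Type*} [Monoid M] (Q : ℕ → M) (k : ℕ) : segProd Q k k = 1 := by
  cases k <;> simp [segProd]

theorem segProd_succ {M : Type*} [Monoid M] (Q : ℕ → M) {k m : ℕ} (h : k ≤ m) :
    segProd Q k (m + 1) = segProd Q k m * Q m := by simp [segProd, h]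

theorem segProd_split {M : Type*} [Monoid M] (Q : ℕ → M) {k n m : ℕ} (hkn : k ≤ n) (hnm : n ≤ m) :
    segProd Q k n * segProd Q n m = segProd Q k m := by
  induction m, hnm using Nat.le_induction with
  | base => rw [segProd_self, mul_one]
  | succ m hnm ih => rw [segProd_succ Q hnm, segProd_succ Q (hkn.trans hnm), ← mul_assoc, ih]

/-- Intertwining passes to products. -/
theorem segProd_intertwine {a b : Type} [Fintype a] [Fintype b] [DecidableEq a] [DecidableEq b]
    (Q : ℕ → Matrix a a ℂ) (B : ℕ → Matrix b b ℂ) (L : Matrix a b ℂ) {k m : ℕ} (hkm : k ≤ m)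
    (h : ∀ l, k ≤ l → l < m → Q l * L = L * B l) : segProd Q k m * L = L * segProd B k m := by
  induction m, hkm using Nat.le_induction with
  | base => rw [segProd_self, segProd_self, Matrix.one_mul, Matrix.mul_one]
  | succ m hkm ih =>
    rw [segProd_succ Q hkm, segProd_succ B hkm, Matrix.mul_assoc, h m hkm (Nat.lt_succ_self m),
      ← Matrix.mul_assoc, ih fun l hl hl' => h l hl (hl'.trans (Nat.lt_succ_self m)),
      Matrix.mul_assoc]

theorem norm_le_one_of_isometry {a b : Type} [Fintype a] [Fintype b] [DecidableEq a]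
    [DecidableEq b] {L : Matrix a b ℂ} (h : Lᴴ * L = 1) : ‖L‖ ≤ 1 := by
  have e := Matrix.l2_opNorm_conjTranspose_mul_self L
  rw [h] at e
  nlinarith [norm_one_matrix_le (ι := b), norm_nonneg L]

theorem adaptBasis_apply_ne {x y : BPt} (h : lab x.1.out ≠ lab y.1.out) : adaptBasis x y = 0 :=
  dif_neg fun e => h (funext fun k => congrArg (fun t => (t.1 k : ℕ)) e)

theorem unitary_of_isometry {n : Type} [Fintype n] [DecidableEq n] {A : Matrix n n ℂ}
    (h : Aᴴ * A = 1) : A * Aᴴ = 1 :=
  mul_eq_one_comm.1 h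

theorem adaptBasis_unitary : adaptBasisᴴ * adaptBasis = 1 ∧ adaptBasis * adaptBasisᴴ = 1 := by
  have h : adaptBasisᴴ * adaptBasis = 1 := by
    ext x y
    have hz : ∀ z : PntK 20, lab z.out ∉ band → tessMat 20 z x.1 = 0 := by
      intro z hzb
      refine dif_neg fun e => hzb ?_
      have : lab z.out = lab x.1.out := funext fun k => congrArg (fun t => (t.1 k : ℕ)) e
      rw [this]
      exact x.2
    have hs : ∀ f : PntK 20 → ℂ, (∀ z, lab z.out ∉ band → f z = 0) →
        ∑ b : BPt, f b.1 = ∑ z, f z := fun f hf => by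
      rw [← Finset.sum_subtype (Finset.univ.filter fun z : PntK 20 => lab z.out ∈ band) (by simp) f]
      exact Finset.sum_filter_of_ne fun z _ hzf => not_not.1 fun e => hzf (hf z e)
    have e : (adaptBasisᴴ * adaptBasis) x y = ((tessMat 20)ᴴ * tessMat 20) x.1 y.1 := by
      rw [Matrix.mul_apply, Matrix.mul_apply,
        ← hs (fun z => (tessMat 20)ᴴ x.1 z * tessMat 20 z y.1)
          (fun z hzb => by simp [Matrix.conjTranspose_apply, hz z hzb])]
      rfl
    rw [e, tessMat_unitary.1]
    rw [Matrix.one_apply, Matrix.one_apply]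
    exact if_congr Subtype.ext_iff.symm rfl rfl
  exact ⟨h, unitary_of_isometry h⟩

/-- Functions of the labels commute with the change of basis. -/
theorem adaptBasis_labDiag (f : Lbl → ℝ) : adaptBasis * labDiag f = labDiag f * adaptBasis := by
  ext x y
  rw [labDiag, Matrix.mul_diagonal, Matrix.diagonal_mul]
  by_cases h : lab x.1.out = lab y.1.out
  · rw [h, mul_comm]
  · simp [adaptBasis_apply_ne h]

theorem bIdx_out (K : ℕ) (x : BPt) : (bIdx K x).out = x.1.out := rfl

theorem bIdx_injective (K : ℕ) : Function.Injective (bIdx K) := fun x y h =>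
  Subtype.ext (PntK.out_injective (by rw [← bIdx_out K x, ← bIdx_out K y, h]))

theorem exists_bIdx {K : ℕ} {x : PntK (K + 40)} (h : lab x.out ∈ band) :
    ∃ a : BPt, bIdx K a = x := by
  obtain ⟨⟨t, ht⟩, m⟩ := x
  have hlt : ∀ k, (t k : ℕ) < 21 := fun k => by
    have hb : lab (PntK.out (⟨⟨t, ht⟩, m⟩ : PntK (K + 40))) ∈ band := h
    unfold band at hb
    simp only [Finset.mem_filter, Fintype.mem_piFinset, Finset.mem_range] at hb
    exact (hb.1 k).trans (by norm_num)
  exact ⟨⟨⟨⟨fun k => ⟨t k, hlt k⟩, ht⟩, m⟩, h⟩, rfl⟩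

theorem bandLift_isometry (K : ℕ) : (bandLift K)ᴴ * bandLift K = 1 := by
  have e : ((1 : Op (PntK (K + 40))).submatrix id (bIdx K))ᴴ *
      (1 : Op (PntK (K + 40))).submatrix id (bIdx K) = 1 := by
    ext x y
    rw [Matrix.mul_apply, Matrix.one_apply, Finset.sum_eq_single (bIdx K x) ?_ (by simp)]
    · simp [Matrix.one_apply, (bIdx_injective K).eq_iff]
    · intro z _ hz
      simp [Matrix.one_apply, hz]
  rw [bandLift, Matrix.conjTranspose_mul, Matrix.mul_assoc,
    ← Matrix.mul_assoc ((1 : Op (PntK (K + 40))).submatrix id (bIdx K))ᴴ, e,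
    Matrix.one_mul, adaptBasis_unitary.1]

theorem qLift_isometry (K : ℕ) : (qLift K)ᴴ * qLift K = 1 := by
  ext x y
  rw [Matrix.mul_apply, Matrix.one_apply, Finset.sum_eq_single x.1 ?_ (by simp)]
  · simp [qLift, Matrix.one_apply, Subtype.ext_iff]
  · intro z _ hz
    simp [qLift, Matrix.one_apply, hz]

theorem bandLift_norm_le (K : ℕ) : ‖bandLift K‖ ≤ 1 ∧ ‖(bandLift K)ᴴ‖ ≤ 1 := by
  rw [Matrix.l2_opNorm_conjTranspose]
  exact ⟨norm_le_one_of_isometry (bandLift_isometry K), norm_le_one_of_isometry (bandLift_isometry K)⟩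

theorem qLift_norm_le (K : ℕ) : ‖qLift K‖ ≤ 1 ∧ ‖(qLift K)ᴴ‖ ≤ 1 := by
  rw [Matrix.l2_opNorm_conjTranspose]
  exact ⟨norm_le_one_of_isometry (qLift_isometry K), norm_le_one_of_isometry (qLift_isometry K)⟩

theorem bandLift_qLift (K : ℕ) : (bandLift K)ᴴ * qLift K = 0 := by
  have e : ((1 : Op (PntK (K + 40))).submatrix id (bIdx K))ᴴ * qLift K = 0 := by
    ext x y
    rw [Matrix.mul_apply, Matrix.zero_apply]
    refine Finset.sum_eq_zero fun z _ => ?_
    by_cases hz : z = bIdx K x
    · have hne : bIdx K x ≠ y.1 := fun e => y.2.1 (e ▸ x.2)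
      simp [qLift, hz, hne]
    · simp [hz]
  rw [bandLift, Matrix.conjTranspose_mul, Matrix.mul_assoc, e, Matrix.mul_zero]

variable (d : PathData) (r₂ β : ℝ)

/-- An intended segment on the band, in the adapted basis. -/
def segBand (p : Param) (i l : ℕ) (s : StageSpec) (z : ℂ) : Matrix BPt BPt ℂ :=
  labDiag (fun t => freeDecay d r₂ β (segStart d i l) (ctrlStart d i l) t +
      stageShift d r₂ β p s.gauge i l t) * s.bandMat z *
    labDiag (freeDecay d r₂ β (ctrlStart d i l) (segEnd d i l))

/-- An intended segment on the band columns. -/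
theorem idealSeg_bandLift (p : Param) (K i l : ℕ) (s : StageSpec) (z : ℂ) :
    idealSeg d r₂ β p K i l s z * bandLift K = bandLift K * segBand d r₂ β p i l s z := by
  set D1 := labDiag (fun t => freeDecay d r₂ β (segStart d i l) (ctrlStart d i l) t +
      stageShift d r₂ β p s.gauge i l t)
  set D2 := labDiag (freeDecay d r₂ β (ctrlStart d i l) (segEnd d i l))
  set Gm : Matrix BPt BPt ℂ :=
    Matrix.of fun x y => gaugeEntry s.gauge (extBlk (s.tgt z)) x.1.out y.1.out with hGm
  have h1 : idealSeg d r₂ β p K i l s z * (1 : Op (PntK (K + 40))).submatrix id (bIdx K) =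
      (1 : Op (PntK (K + 40))).submatrix id (bIdx K) * (D1 * Gm * D2) := by
    ext x y
    rw [Matrix.mul_apply, Matrix.mul_apply, Finset.sum_eq_single (bIdx K y) ?_ (by simp)]
    swap
    · intro w _ hw
      simp [hw]
    by_cases hx : lab x.out ∈ band
    · obtain ⟨a, rfl⟩ := exists_bIdx hx
      rw [Finset.sum_eq_single a ?_ (by simp)]
      · have e1 : (1 : Op (PntK (K + 40))).submatrix id (bIdx K) (bIdx K y) y = 1 := Matrix.one_apply_eq _
        have e2 : (1 : Op (PntK (K + 40))).submatrix id (bIdx K) (bIdx K a) a = 1 := Matrix.one_apply_eq _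
        rw [e1, e2]
        simp only [one_mul, mul_one, idealSeg, bIdx_out,
          D1, D2, labDiag, Matrix.mul_diagonal, Matrix.diagonal_mul, hGm, Matrix.of_apply, neg_add']
        exact (if_pos a.2).trans (if_pos y.2)
      · intro w _ hw
        simp [(bIdx_injective K).eq_iff, Ne.symm hw]
    · rw [Finset.sum_eq_zero fun w _ => ?_]
      · rw [show (1 : Op (PntK (K + 40))).submatrix id (bIdx K) (bIdx K y) y = 1 from
          Matrix.one_apply_eq _, mul_one, idealSeg, if_neg hx,
          if_pos (Or.inl (show lab (bIdx K y).out ∈ band from y.2))]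
      · have : x ≠ bIdx K w := fun e => hx (e ▸ w.2)
        simp [this]
  have h2 : D1 * Gm * D2 * adaptBasis = adaptBasis * segBand d r₂ β p i l s z := by
    show _ = adaptBasis * (D1 * (adaptBasisᴴ * Gm * adaptBasis) * D2)
    simp only [Matrix.mul_assoc]
    rw [← Matrix.mul_assoc adaptBasis D1, adaptBasis_labDiag, Matrix.mul_assoc D1,
      ← Matrix.mul_assoc adaptBasis adaptBasisᴴ, adaptBasis_unitary.2, Matrix.one_mul,
      ← adaptBasis_labDiag]
  rw [bandLift, ← Matrix.mul_assoc, h1, Matrix.mul_assoc, h2, Matrix.mul_assoc]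

end Vale.Agent.P225.Bds
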