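import Vale.Agent.P225.Assembly.Rates
import Vale.Agent.P225.Assembly.Residual

/-!
P225, assembly: the columns outside the band of the corrected cluster map are negligible against
the monomial, whatever the slot values.
-/

noncomputable section

namespace Vale.Agent.P225

open Matrix SU2
open scoped ComplexOrder Matrix.Norms.L2Operator

namespace QCols

attribute [local irreducible] band

theorem norm_le_one_of_conjTranspose_mul {m n : Type*} [Fintype m] [Fintype n] [DecidableEq n]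
    [DecidableEq m] {A : Matrix m n ℂ} (h : Aᴴ * A = 1) : ‖A‖ ≤ 1 := by
  have h1 := Matrix.l2_opNorm_conjTranspose_mul_self A
  rw [h] at h1
  have h2 : ‖(1 : Matrix n n ℂ)‖ ≤ 1 := by
    rw [← diagonal_one, l2_opNorm_diagonal, pi_norm_le_iff_of_nonneg zero_le_one]
    simp
  nlinarith [norm_nonneg A]

theorem qLift_iso (K : ℕ) : (qLift K)ᴴ * qLift K = 1 := by
  classical
  ext x y
  simp [qLift, Matrix.mul_apply, Matrix.one_apply, Subtype.coe_inj, eq_comm]

theorem qLift_norm (K : ℕ) : ‖qLift K‖ ≤ 1 := norm_le_one_of_conjTranspose_mul (qLift_iso K)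

theorem qLift_mul_apply (K : ℕ) (B : Matrix (QPt (K + 40)) (QPt (K + 40)) ℂ) (x : PntK (K + 40))
    (y : QPt (K + 40)) :
    (qLift K * B) x y =
      if h : lab x.out ∉ band ∧ lab x.out ≠ 0 then B ⟨x, h⟩ y else 0 := by
  classical
  rw [Matrix.mul_apply]
  split_ifs with h
  · rw [Finset.sum_eq_single ⟨x, h⟩]
    · rw [show qLift K x ⟨x, h⟩ = 1 from Matrix.one_apply_eq x, one_mul]
    · intro z _ hz
      rw [show qLift K x z = 0 from ?_, zero_mul]
      simp only [qLift, Matrix.submatrix_apply, id_eq, Matrix.one_apply]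
      exact if_neg fun e => hz (Subtype.ext e.symm)
    · simp
  · refine Finset.sum_eq_zero fun z _ => ?_
    rw [show qLift K x z = 0 from ?_, zero_mul]
    simp only [qLift, Matrix.submatrix_apply, id_eq, Matrix.one_apply]
    exact if_neg fun e => h (by rw [e]; exact z.2)

variable {d : PathData} {r₂ β : ℝ}

/-- The block of a reference backward map on the other points. -/
def qBlock (d : PathData) (r₂ β : ℝ) (p : Param) (K i l : ℕ) :
    Matrix (QPt (K + 40)) (QPt (K + 40)) ℂ :=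
  (qLift K)ᴴ * (segBack d r₂ β p (K + 40) i l (segEnd d i l) * qLift K)

theorem qBlock_norm_le (p : Param) (K i l : ℕ) :
    ‖qBlock d r₂ β p K i l‖ ≤ ‖segBack d r₂ β p (K + 40) i l (segEnd d i l) * qLift K‖ := by
  refine (Matrix.l2_opNorm_mul _ _).trans (mul_le_of_le_one_left (norm_nonneg _) ?_)
  rw [Matrix.l2_opNorm_conjTranspose]
  exact qLift_norm K

theorem idealSeg_qLift (p : Param) (K i l : ℕ) (s : StageSpec) (z : ℂ) :
    idealSeg d r₂ β p K i l s z * qLift K = qLift K * qBlock d r₂ β p K i l := by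
  classical
  ext x y
  have e : ∀ A : Op (PntK (K + 40)), ∀ x' : PntK (K + 40), (A * qLift K) x' y = A x' y.1 :=
    fun A x' => by simp [qLift, Matrix.mul_apply, Matrix.one_apply]
  rw [e, qLift_mul_apply]
  obtain ⟨hy1, hy2⟩ := y.2
  by_cases hx : lab x.out ∈ band
  · simp [idealSeg, hx, hy1]
  by_cases hx0 : lab x.out = 0
  · simp [idealSeg, hx0, hy1]
  rw [idealSeg, if_neg hx, if_neg (by tauto), dif_pos ⟨hx, hx0⟩]
  simp [qBlock, qLift, Matrix.mul_apply, Matrix.one_apply]

theorem idealFun_qLift (p : Param) (c : ClusterData) (K i : ℕ) (z : ℕ → ℂ) {l : ℕ}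
    (hl : l < c.len) :
    idealFun d r₂ β p c K i z l * qLift K = qLift K * qBlock d r₂ β p K i l := by
  rw [idealFun, dif_pos hl]
  exact idealSeg_qLift p K i l _ _

/-- Products of maps keeping a subspace, on which they are contractions. -/
theorem segProd_lift {m n : Type*} [Fintype m] [Fintype n] [DecidableEq m] [DecidableEq n]
    (Q : ℕ → Matrix m m ℂ) (Bq : ℕ → Matrix n n ℂ) (L : Matrix m n ℂ) {len : ℕ}
    (hQ : ∀ l < len, Q l * L = L * Bq l) (hB : ∀ l < len, ‖Bq l‖ ≤ 1) (k : ℕ) :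
    ∀ u ≤ len, ∃ Y : Matrix n n ℂ, ‖Y‖ ≤ 1 ∧ segProd Q k u * L = L * Y := by
  intro u
  induction u with
  | zero =>
    intro _
    exact ⟨1, norm_le_one_of_conjTranspose_mul (by simp), by simp [segProd]⟩
  | succ u ih =>
    intro hu
    by_cases hk : k ≤ u
    · obtain ⟨Y, hY, hY'⟩ := ih (Nat.le_of_succ_le hu)
      refine ⟨Y * Bq u, ?_, ?_⟩
      · exact (norm_mul_le _ _).trans (mul_le_one₀ hY (norm_nonneg _) (hB u hu))
      · rw [segProd, if_pos hk, Matrix.mul_assoc, hQ u hu, ← Matrix.mul_assoc, hY', Matrix.mul_assoc]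
    · exact ⟨1, norm_le_one_of_conjTranspose_mul (by simp), by simp [segProd, hk]⟩

/-- A suffix of the intended product is bounded on the other points by the last segment. -/
theorem segProd_qLift_le (p : Param) (c : ClusterData) (K i : ℕ) (z : ℕ → ℂ)
    (hB : ∀ l < c.len, ‖qBlock d r₂ β p K i l‖ ≤ 1) {k : ℕ} (hk : k < c.len) :
    ‖segProd (idealFun d r₂ β p c K i z) k c.len * qLift K‖ ≤
      ‖segBack d r₂ β p (K + 40) i (c.len - 1) (segEnd d i (c.len - 1)) * qLift K‖ := by
  obtain ⟨n, hn⟩ : ∃ n, c.len = n + 1 := ⟨c.len - 1, by omega⟩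
  obtain ⟨Y, hY, hY'⟩ := segProd_lift (idealFun d r₂ β p c K i z) (qBlock d r₂ β p K i) (qLift K)
    (fun l hl => idealFun_qLift p c K i z hl) hB k n (by omega)
  rw [hn, segProd, if_pos (by omega), Matrix.mul_assoc, idealFun_qLift p c K i z (by omega),
    ← Matrix.mul_assoc, hY', Nat.add_sub_cancel]
  refine (Matrix.l2_opNorm_mul _ _).trans ?_
  refine (mul_le_of_le_one_left (norm_nonneg _) ?_).trans (qBlock_norm_le p K i n)
  exact (Matrix.l2_opNorm_mul _ _).trans (mul_le_one₀ (qLift_norm K) (norm_nonneg _) hY)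

/-- An invertible matrix with a bound on the inverse. -/
def InvLe {n : Type*} [Fintype n] [DecidableEq n] (A : Matrix n n ℂ) (b : ℝ) : Prop := IsUnit A ∧ ‖A⁻¹‖ ≤ b

theorem InvLe.mul {n : Type*} [Fintype n] [DecidableEq n] {A B : Matrix n n ℂ} {a b : ℝ} (hA : InvLe A a) (hB : InvLe B b) :
    InvLe (A * B) (b * a) := by
  refine ⟨hA.1.mul hB.1, ?_⟩
  rw [Matrix.mul_inv_rev]
  exact (norm_mul_le _ _).trans (mul_le_mul hB.2 hA.2 (norm_nonneg _) ((norm_nonneg _).trans hB.2))

theorem InvLe.of_unitary {n : Type*} [Fintype n] [DecidableEq n] {A : Matrix n n ℂ} (h : Aᴴ * A = 1) : InvLe A 1 := by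
  have h' := mul_eq_one_comm.1 h
  refine ⟨⟨⟨A, Aᴴ, h', h⟩, rfl⟩, ?_⟩
  rw [Matrix.inv_eq_left_inv h, Matrix.l2_opNorm_conjTranspose]
  exact norm_le_one_of_conjTranspose_mul h

theorem InvLe.ofDiag {a : Lbl → ℝ} {b : ℝ} (h : ∀ t ∈ band, a t ≤ b) :
    InvLe (labDiag a) (Real.exp b) := by
  have key : labDiag (fun t => -a t) * labDiag a = 1 := by
    rw [labDiag, labDiag, diagonal_mul_diagonal, ← diagonal_one]
    congr 1; funext x
    rw [← Complex.ofReal_mul, ← Real.exp_add]
    simp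
  refine ⟨⟨⟨labDiag a, labDiag fun t => -a t, mul_eq_one_comm.1 key, key⟩, rfl⟩, ?_⟩
  rw [Matrix.inv_eq_left_inv key, labDiag, l2_opNorm_diagonal,
    pi_norm_le_iff_of_nonneg (Real.exp_pos _).le]
  intro x
  rw [Complex.norm_real, Real.norm_eq_abs, Real.abs_exp, neg_neg]
  exact Real.exp_le_exp.2 (h _ x.2)

theorem clusterProd_invLe (specs : List StageSpec) (a : ℕ → Lbl → ℝ) (z : ℕ → ℂ) {b e : ℝ}
    (hU : ∀ k (h : k < specs.length), ((specs[k]).bandMat (z k))ᴴ * (specs[k]).bandMat (z k) = 1)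
    (hb : ∀ k < specs.length, ∀ t ∈ band, a k t ≤ b) (he : ∀ t ∈ band, a specs.length t ≤ e) :
    InvLe (clusterProd specs a z) (Real.exp (specs.length * b + e)) := by
  have key : ∀ n ≤ specs.length, InvLe (((List.range n).map fun k =>
      labDiag (a k) * ((specs[k]?).map fun s => s.bandMat (z k)).getD 1).prod)
      (Real.exp (n * b)) := by
    intro n
    induction n with
    | zero =>
      intro _
      simpa using InvLe.of_unitary (A := (1 : Matrix BPt BPt ℂ)) (by simp)
    | succ n ih =>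
      intro hn
      rw [List.range_succ, List.map_append, List.prod_append, List.map_singleton,
        List.prod_singleton, List.getElem?_eq_getElem hn, Option.map_some, Option.getD_some]
      have h := (ih (Nat.le_of_succ_le hn)).mul
        ((InvLe.ofDiag (hb n hn)).mul (InvLe.of_unitary (hU n hn)))
      refine ⟨h.1, h.2.trans (le_of_eq ?_)⟩
      rw [one_mul, ← Real.exp_add]
      congr 1; push_cast; ring
  have h := (key specs.length le_rfl).mul (InvLe.ofDiag he)
  exact ⟨h.1, h.2.trans (le_of_eq (by rw [← Real.exp_add, add_comm]))⟩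

theorem exists_len_bound (S : Schedule) : ∃ L : ℕ, ∀ j, (S.cd j).len ≤ L := by
  refine ⟨∑ j ∈ Finset.range S.period, (S.cd j).len, fun j => ?_⟩
  rw [← (show Function.Periodic S.cd S.period from S.periodic).map_mod_nat j]
  exact Finset.single_le_sum (f := fun j => (S.cd j).len) (fun _ _ => Nat.zero_le _)
    (Finset.mem_range.2 (Nat.mod_lt j S.period_pos))

theorem len_pos (c : ClusterData) : 0 < c.len := by
  by_contra h
  have h0 := c.spec.nonempty
  rw [ne_eq, List.ofFn_eq_nil_iff] at h0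
  omega

end QCols

open QCols in
theorem rawMap_qCols (S : Schedule) (R : ℕ) : ∃ (C : ℝ) (j₁ : ℕ), 0 < C ∧
    ∀ (d : PathData) (r₂ β φ₀ : ℝ), S.Adm R d r₂ β φ₀ → j₁ ≤ d.j₀ →
      ∀ p : Param, InBox d p → ∀ (K i : ℕ) (z : ℕ → ℂ),
        let c := S.cd (d.j₀ + i)
        IsUnit (clusterMono d r₂ β p c i) ∧
          ‖rawMap d r₂ β p c K i z * qLift K‖ * ‖(clusterMono d r₂ β p c i)⁻¹‖ ≤
            C * errSize (d.j₀ + i) := by
  obtain ⟨C₀, j₀, hC₀, hstart⟩ := residual_start S R
  obtain ⟨C₁, γ, j₁, hC₁, hγ, hlast⟩ := segBack_last_le S R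
  obtain ⟨C₂, hC₂, hexp⟩ := clusterExp_last S R
  obtain ⟨j₂, hexp⟩ := hexp (γ / 2) (by positivity)
  obtain ⟨L, hL⟩ := exists_len_bound S
  set B := C₁ + (L + 1) * C₂ + 2 with hB
  refine ⟨1 + L * C₀, max (max j₀ j₁) (max j₂ (max 1 ⌈2 * B / γ⌉₊)), by positivity,
    fun d r₂ β φ₀ hadm hj p hp K i z => ?_⟩
  intro c
  have hd := hadm.good
  set j : ℝ := ((d.j₀ + i : ℕ) : ℝ) with hjdef
  have hlen : ∀ j, (d.plan j).length = (S.cd j).len := fun j => by
    rw [hadm.plan_eq]; simp [Schedule.plan, ClusterData.stagePlan]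
  have hBle : ∀ l < c.len, ‖qBlock d r₂ β p K i l‖ ≤ 1 := fun l hl => by
    obtain ⟨-, hV, hpos, hback⟩ := segRef_spec hd hp (K + 40) i (l := l) (by rwa [hlen])
    refine (qBlock_norm_le p K i l).trans ((Matrix.l2_opNorm_mul _ _).trans
      (mul_le_one₀ ?_ (norm_nonneg _) (qLift_norm K)))
    refine back_norm_le_one (fun t ht => (hV t ht).continuousAt.continuousWithinAt) hback hpos _
      ⟨?_, le_rfl⟩
    have := Decay.seg_long hd.j₀_pos (i := i) (l := l) (by rwa [hlen])
    linarith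
  have hc0 : 0 < c.len := len_pos c
  set Z := ‖segBack d r₂ β p (K + 40) i (c.len - 1) (segEnd d i (c.len - 1)) * qLift K‖
  have hraw : ‖rawMap d r₂ β p c K i z * qLift K‖ ≤ (1 + L * C₀) * Z := by
    rw [rawMap, Matrix.sub_mul, Matrix.sum_mul]
    refine (norm_sub_le _ _).trans ?_
    rw [add_mul, one_mul]
    refine add_le_add (segProd_qLift_le p c K i z hBle hc0) ((norm_sum_le _ _).trans
      ((Finset.sum_le_sum (g := fun _ => C₀ * Z) fun l hl => ?_).trans ?_))
    · have hl' : l < c.len := Finset.mem_range.1 hl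
      rw [Matrix.mul_assoc]
      refine (Matrix.l2_opNorm_mul _ _).trans (mul_le_mul ((norm_mul_le _ _).trans ?_)
        (segProd_qLift_le p c K i z hBle hl') (norm_nonneg _) hC₀.le)
      refine (mul_le_of_le_one_left (norm_nonneg _) (truncBack_norm_le hd hp _ ?_ ?_)).trans
        ((hstart d r₂ β φ₀ hadm (by omega) p hp K i).2 l hl')
      · have h := (Decay.segStart_gt hd i 0).le
        rwa [segStart, Trunc.stageStart_zero] at h
      · exact Sched.clusterStart_le_stage hd.j₀_pos i l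
    · rw [Finset.sum_const, Finset.card_range, nsmul_eq_mul, ← mul_assoc]
      exact mul_le_mul_of_nonneg_right
        (mul_le_mul_of_nonneg_right (Nat.cast_le.2 (hL _)) hC₀.le) (norm_nonneg _)
  obtain ⟨t₀, ht₀, hmax⟩ := band.exists_max_image (fun t => expo (27 / 4) t) ⟨![2, 2, 0], mem_band.2 (by decide)⟩
  obtain ⟨ha, halast⟩ := hexp d r₂ β φ₀ hadm (by omega) p hp i
  have hspec : c.specs.length = c.len := by simp [ClusterData.specs]
  have hmono : InvLe (clusterMono d r₂ β p c i)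
      (Real.exp (c.specs.length * (C₂ * j ^ 4) +
        (expo (27 / 4) t₀ * j ^ 5 + (C₂ * j ^ 4 + γ / 2 * j ^ 5)))) := by
    refine clusterProd_invLe _ _ _ (fun k hk => ?_) (fun k hk t ht => ?_) fun t ht => ?_
    · obtain ⟨σ, hσ⟩ := c.spec.mono (c.specs[k]) (List.getElem_mem hk)
      exact hσ.1
    · exact (le_abs_self _).trans (ha k (hspec ▸ hk) t ht)
    · rw [hspec]
      have h := (abs_le.1 (halast t ht)).2
      have hm := mul_le_mul_of_nonneg_right (hmax t ht) (show (0 : ℝ) ≤ j ^ 5 by positivity)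
      linarith
  refine ⟨hmono.1, (mul_le_mul hraw hmono.2 (norm_nonneg _)
    (mul_nonneg (by positivity) (norm_nonneg _))).trans ?_⟩
  rw [mul_assoc]
  refine mul_le_mul_of_nonneg_left ?_ (by positivity)
  refine (mul_le_mul_of_nonneg_right (hlast d r₂ β φ₀ hadm (by omega) p hp K i t₀ ht₀)
    (Real.exp_pos _).le).trans ?_
  rw [← Real.exp_add, errSize, ← hjdef, hspec]
  refine Real.exp_le_exp.2 ?_
  have hjγ : 2 * B ≤ γ * j := by
    have h1 : ((⌈2 * B / γ⌉₊ : ℕ) : ℝ) ≤ j := Nat.cast_le.2 (by omega)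
    have h2 := (Nat.le_ceil (2 * B / γ)).trans h1
    rw [div_le_iff₀ hγ] at h2
    linarith
  have h4 : (0 : ℝ) ≤ j ^ 4 := by positivity
  have e1 := mul_le_mul_of_nonneg_right hjγ h4
  have e2 : (c.len : ℝ) * (C₂ * j ^ 4) ≤ L * (C₂ * j ^ 4) :=
    mul_le_mul_of_nonneg_right (Nat.cast_le.2 (hL _)) (mul_nonneg hC₂.le h4)
  rw [hB] at e1
  linarith

end Vale.Agent.P225
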