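import Vale.Agent.P225.Assembly.Ideal

/-!
P225, assembly, bounds: targets with small slot values are uniformly invertible on the band, and
the elementary norms.
-/

noncomputable section

namespace Vale.Agent.P225.Bds

open Matrix SU2 NormedSpace Filter
open scoped ComplexOrder Matrix.Norms.L2Operator Topology

attribute [local irreducible] band

theorem continuous_bandMat (s : StageSpec) : Continuous s.bandMat := by
  have ht : Continuous s.tgt :=
    continuous_const.add (LinearMap.continuous_of_finiteDimensional s.N)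
  have hp : ∀ p, Continuous fun z => extBlk (s.tgt z) p := fun p => by
    unfold extBlk
    split_ifs with h
    · exact (continuous_apply _).comp ht
    · exact continuous_const
  have he : Continuous fun z => (Matrix.of fun x y : BPt =>
      gaugeEntry s.gauge (extBlk (s.tgt z)) x.1.out y.1.out : Matrix BPt BPt ℂ) := by
    refine continuous_matrix fun x y => ?_
    simp only [Matrix.of_apply, gaugeEntry]
    split_ifs with h
    · refine continuous_finsetSum _ fun u _ => continuous_finsetSum _ fun v _ => ?_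
      exact (continuous_const.mul (Continuous.matrix_elem (hp (blkLab s.gauge x.1.out)) u v)).mul continuous_const
    · exact continuous_const
  show Continuous fun z => adaptBasisᴴ * _ * adaptBasis
  exact (continuous_const.matrix_mul he).matrix_mul continuous_const

theorem inv_near_unitary {n : Type} [Fintype n] [DecidableEq n] {f : ℂ → Matrix n n ℂ}
    (hf : Continuous f) (h0 : (f 0)ᴴ * f 0 = 1) :
    ∀ᶠ z in 𝓝 (0 : ℂ), IsUnit (f z).det ∧ ‖(f z)⁻¹‖ ≤ 2 := by
  have hu : IsUnit (f 0).det := Matrix.isUnit_det_of_left_inverse h0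
  have hn : ‖(f 0)⁻¹‖ < 2 := by
    rw [Matrix.inv_eq_left_inv h0, Matrix.l2_opNorm_conjTranspose]
    have e := Matrix.l2_opNorm_conjTranspose_mul_self (f 0)
    rw [h0] at e
    nlinarith [norm_one_matrix_le (ι := n), norm_nonneg (f 0)]
  have hc : ContinuousAt (fun z => (f z)⁻¹) 0 :=
    (continuousAt_matrix_inv _ (continuousAt_inv₀ hu.ne_zero |> fun h => by
      simpa [Ring.inverse_eq_inv'] using h)).comp hf.continuousAt
  filter_upwards [hc.norm.eventually (eventually_lt_nhds hn),
    (hf.matrix_det.continuousAt).eventually_ne hu.ne_zero] with z h1 h2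
  exact ⟨isUnit_iff_ne_zero.2 h2, h1.le⟩

theorem _root_.Vale.Agent.P225.Schedule.cd_mod (S : Schedule) (j : ℕ) : S.cd j = S.cd (j % S.period) := by
  conv_lhs => rw [← Nat.mod_add_div j S.period]
  induction j / S.period with
  | zero => simp
  | succ k ih => rw [Nat.mul_succ, ← Nat.add_assoc, S.periodic, ih]

/-- One radius for all targets of the schedule. -/
theorem exists_slot_radius (S : Schedule) : ∃ r > 0, ∀ j, ∀ s ∈ (S.cd j).specs, ∀ z : ℂ, ‖z‖ ≤ r →
    IsUnit (s.bandMat z).det ∧ ‖(s.bandMat z)⁻¹‖ ≤ 2 := by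
  have h : ∀ᶠ z in 𝓝 (0 : ℂ), ∀ j ∈ Finset.range S.period, ∀ l ∈ Finset.univ (α := Fin (S.cd j).len),
      IsUnit (((S.cd j).stage l).spec.bandMat z).det ∧ ‖(((S.cd j).stage l).spec.bandMat z)⁻¹‖ ≤ 2 := by
    refine (eventually_all_finset _).2 fun j _ => (eventually_all_finset _).2 fun l _ => ?_
    obtain ⟨σ, hσ, -⟩ := (S.cd j).spec.mono _ (List.mem_ofFn.2 ⟨l, rfl⟩)
    exact inv_near_unitary (continuous_bandMat _) hσ
  obtain ⟨r, hr, h⟩ := Metric.eventually_nhds_iff.1 h
  refine ⟨r / 2, half_pos hr, fun j s hs z hz => ?_⟩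
  rw [S.cd_mod] at hs
  obtain ⟨l, rfl⟩ := List.mem_ofFn.1 hs
  exact h (by rw [dist_zero_right]; linarith) _ (Finset.mem_range.2 (Nat.mod_lt j S.period_pos)) l
    (Finset.mem_univ l)

/-- Bounds of the clusters, uniform in the schedule. -/
theorem _root_.Vale.Agent.P225.Schedule.exists_bound (S : Schedule) : ∃ B : ℝ, 1 ≤ B ∧ ∀ j,
    (S.cd j).C ≤ B ∧ ((S.cd j).len : ℝ) ≤ B ∧ ((S.cd j).nParts : ℝ) ≤ B := by
  refine ⟨1 + ∑ j ∈ Finset.range S.period, ((S.cd j).C + (S.cd j).len), ?_, fun j => ?_⟩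
  · have : 0 ≤ ∑ j ∈ Finset.range S.period, ((S.cd j).C + (S.cd j).len) :=
      Finset.sum_nonneg fun j _ => add_nonneg (S.cd j).C_pos.le (Nat.cast_nonneg _)
    linarith
  · rw [S.cd_mod]
    have h := Finset.single_le_sum (f := fun j => (S.cd j).C + ((S.cd j).len : ℝ))
      (fun j _ => add_nonneg (S.cd j).C_pos.le (Nat.cast_nonneg _))
      (Finset.mem_range.2 (Nat.mod_lt j S.period_pos))
    have h1 := (S.cd (j % S.period)).C_pos
    have h2 := (S.cd (j % S.period)).nParts_le
    have h3 : (0 : ℝ) ≤ ((S.cd (j % S.period)).len : ℝ) := Nat.cast_nonneg _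
    exact ⟨by linarith, by linarith, by linarith⟩

theorem labDiag_congr {f g : Lbl → ℝ} (h : ∀ t ∈ band, f t = g t) : labDiag f = labDiag g := by
  simp only [labDiag]
  exact congrArg diagonal (funext fun x => by rw [h _ x.2])

theorem labDiag_mul (f g : Lbl → ℝ) : labDiag f * labDiag g = labDiag fun t => f t + g t := by
  simp only [labDiag, diagonal_mul_diagonal, ← Complex.ofReal_mul, ← Real.exp_add]
  exact congrArg diagonal (funext fun x => by ring_nf)

theorem labDiag_zero : labDiag (fun _ => 0) = 1 := by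
  simp [labDiag]

theorem labDiag_cancel (f : Lbl → ℝ) :
    (labDiag fun t => -f t) * labDiag f = 1 ∧ labDiag f * (labDiag fun t => -f t) = 1 := by
  simp [labDiag_mul, labDiag_zero]

theorem labDiag_norm_le {f : Lbl → ℝ} {B : ℝ} (h : ∀ t ∈ band, |f t| ≤ B) :
    ‖labDiag f‖ ≤ Real.exp B := by
  rw [labDiag, Matrix.l2_opNorm_diagonal, pi_norm_le_iff_of_nonneg (Real.exp_nonneg _)]
  intro x
  rw [Complex.norm_real, Real.norm_eq_abs, abs_of_pos (Real.exp_pos _)]
  exact Real.exp_le_exp.2 ((neg_le_abs _).trans (h _ x.2))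

theorem bPt_nonempty : Nonempty BPt := by
  have ok : LblOK ![2, 2, 0] := by unfold LblOK; simp [Nat.even_iff]
  have h : (![2, 2, 0] : Lbl) ∈ band :=
    mem_band.2 ⟨ok, by simp [cut, cas4, Fin.sum_univ_three], fun e => by simpa using congrFun e 0⟩
  have hlt : ∀ k, (![2, 2, 0] : Lbl) k < 21 := fun k => by fin_cases k <;> simp
  exact ⟨⟨⟨⟨fun k => ⟨(![2, 2, 0] : Lbl) k, hlt k⟩, ok⟩, fun k => 0⟩, h⟩⟩

end Vale.Agent.P225.Bds
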