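import Vale.Agent.P225.Assembly.Bounds.Band
import Vale.Agent.P225.Assembly.Bounds.Slots
import Vale.Agent.P225.Assembly.Residual

/-!
P225, assembly, bounds: the intended segments on the band are the cluster product, and the product
after a segment is the free growth of its wait times something of moderate size.
-/

noncomputable section

namespace Vale.Agent.P225.Bds

open Matrix SU2 NormedSpace Set MeasureTheory
open scoped ComplexOrder Matrix.Norms.L2Operator

attribute [local irreducible] band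

theorem norm_mul3_le {n : Type} [Fintype n] [DecidableEq n] (A B C : Matrix n n ℂ) :
    ‖A * B * C‖ ≤ ‖A‖ * ‖B‖ * ‖C‖ :=
  (norm_mul_le _ _).trans (mul_le_mul_of_nonneg_right (norm_mul_le _ _) (norm_nonneg _))

variable {d : PathData} {r₂ β φ₀ : ℝ}

theorem freeDecay_add (hd : d.Good r₂ β φ₀) (t : Lbl) {a b c : ℝ} (ha : startTime r₂ ≤ a)
    (hb : startTime r₂ ≤ b) (hc : startTime r₂ ≤ c) :
    freeDecay d r₂ β a b t + freeDecay d r₂ β b c t = freeDecay d r₂ β a c t := by
  have hcont : ContinuousOn (freeRate d r₂ β t) (Ici (startTime r₂)) := fun u hu =>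
    ((freeRate_spec hd t).2 u hu).continuousAt.continuousWithinAt
  have hint : ∀ u v, startTime r₂ ≤ u → startTime r₂ ≤ v →
      IntervalIntegrable (freeRate d r₂ β t) volume u v := fun u v hu hv =>
    (hcont.mono fun w hw => (le_inf hu hv).trans hw.1).intervalIntegrable
  exact intervalIntegral.integral_add_adjacent_intervals (hint a b ha hb) (hint b c hb hc)

theorem _root_.Vale.Agent.P225.Schedule.Adm.plan_length {S : Schedule} {R : ℕ} (h : S.Adm R d r₂ β φ₀) (j : ℕ) :
    (d.plan j).length = (S.cd j).len := by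
  simp [h.plan_eq, Schedule.plan, ClusterData.stagePlan]

/-- The times of a segment. -/
theorem seg_order (hd : d.Good r₂ β φ₀) {i l : ℕ} (hl : l < (d.plan (d.j₀ + i)).length) :
    startTime r₂ ≤ segStart d i l ∧ segStart d i l ≤ ctrlStart d i l ∧
      ctrlStart d i l ≤ ctrlEnd d i l ∧ ctrlEnd d i l ≤ segEnd d i l := by
  obtain ⟨h1, h2, -, -, h5⟩ := Trunc.seg_times hd hl
  have hε := Trunc.speed_pos (Trunc.one_le_idx hd i)
  refine ⟨h5, ?_, ?_, ?_⟩
  · show stageStart d i l ≤ stageStart d i l + _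
    linarith [show 0 ≤ 1 / speed (d.j₀ + i) by positivity]
  · rw [Trunc.ctrlEnd_eq hl, ctrlStart, add_div]
    linarith [show 0 ≤ (((d.plan (d.j₀ + i))[l]).len : ℝ) / speed (d.j₀ + i) by positivity]
  · linarith [show 0 ≤ 2 / speed (d.j₀ + i) by positivity]

theorem clusterProd_eq (l : List StageSpec) (a : ℕ → Lbl → ℝ) (z : ℕ → ℂ) :
    clusterProd l a z = segProd (fun k => labDiag (a k) *
      ((l[k]?).map fun s => s.bandMat (z k)).getD 1) 0 l.length * labDiag (a l.length) := by
  refine congrArg (· * _) ?_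
  induction l.length with
  | zero => rfl
  | succ m ih =>
    rw [List.range_succ, List.map_append, List.prod_append, ih, segProd_succ _ (Nat.zero_le m)]
    simp

variable (d r₂ β)

/-- The intended segments of a cluster on the band. -/
def bandFun (p : Param) (c : ClusterData) (i : ℕ) (z : ℕ → ℂ) (l : ℕ) : Matrix BPt BPt ℂ :=
  if h : l < c.len then segBand d r₂ β p i l (c.stage ⟨l, h⟩).spec (z l) else 1

theorem idealProd_bandLift (p : Param) (c : ClusterData) (K i : ℕ) (z : ℕ → ℂ) {k m : ℕ}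
    (hkm : k ≤ m) :
    segProd (idealFun d r₂ β p c K i z) k m * bandLift K =
      bandLift K * segProd (bandFun d r₂ β p c i z) k m := by
  refine segProd_intertwine _ _ _ hkm fun l _ _ => ?_
  unfold idealFun bandFun
  split_ifs with h
  · exact idealSeg_bandLift d r₂ β p K i l _ _
  · rw [Matrix.one_mul, Matrix.mul_one]

variable {d r₂ β}

/-- Factors of a cluster product. -/
def clusterFac (a : ℕ → Lbl → ℝ) (c : ClusterData) (z : ℕ → ℂ) (k : ℕ) : Matrix BPt BPt ℂ :=
  labDiag (a k) * ((c.specs[k]?).map fun s => s.bandMat (z k)).getD 1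

theorem clusterFac_eq (a : ℕ → Lbl → ℝ) (c : ClusterData) (z : ℕ → ℂ) {k : ℕ} (hk : k < c.len) :
    clusterFac a c z k = labDiag (a k) * (c.stage ⟨k, hk⟩).spec.bandMat (z k) := by
  simp [clusterFac, ClusterData.specs, hk]

theorem bandFun_prefix {S : Schedule} {R : ℕ} (h : S.Adm R d r₂ β φ₀) (p : Param) (i : ℕ)
    (z : ℕ → ℂ) (m : ℕ) (hm : m < (S.cd (d.j₀ + i)).len) :
    let c := S.cd (d.j₀ + i)
    segProd (bandFun d r₂ β p c i z) 0 (m + 1) =
      segProd (clusterFac (clusterExp d r₂ β p c i) c z) 0 (m + 1) *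
        labDiag (freeDecay d r₂ β (ctrlStart d i m) (segEnd d i m)) := by
  intro c
  have hd := h.good
  induction m with
  | zero =>
    rw [segProd_succ _ le_rfl, segProd_succ _ le_rfl, segProd_self, segProd_self, one_mul, one_mul,
      bandFun, dif_pos hm, clusterFac_eq _ _ _ hm, segBand]
    refine congrArg (fun X => X * _ * _) (labDiag_congr fun t ht => ?_)
    rw [clusterExp, if_pos ht, if_pos (Nat.zero_le _), dif_pos hm]
    congr 1
    show freeDecay d r₂ β (stageStart d i 0) (ctrlStart d i 0) t =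
      freeDecay d r₂ β (clusterStart d i) (expNode d c.len i 1) t
    rw [Trunc.stageStart_zero, expNode, if_pos hm]
  | succ m ih =>
    have hm' : m < c.len := (Nat.lt_succ_self m).trans hm
    rw [segProd_succ _ (Nat.zero_le _), ih hm',
      segProd_succ (clusterFac (clusterExp d r₂ β p c i) c z) (Nat.zero_le (m + 1)),
      bandFun, dif_pos hm, clusterFac_eq _ _ _ hm, segBand]
    have hl : m < (d.plan (d.j₀ + i)).length := by rw [h.plan_length]; exact hm'
    have hl' : m + 1 < (d.plan (d.j₀ + i)).length := by rw [h.plan_length]; exact hm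
    obtain ⟨o1, o2, o3, o4⟩ := seg_order hd hl
    obtain ⟨q1, q2, -, -⟩ := seg_order hd hl'
    have key : labDiag (freeDecay d r₂ β (ctrlStart d i m) (segEnd d i m)) *
        labDiag (fun t => freeDecay d r₂ β (segStart d i (m + 1)) (ctrlStart d i (m + 1)) t +
          stageShift d r₂ β p (c.stage ⟨m + 1, hm⟩).spec.gauge i (m + 1) t) =
        labDiag (clusterExp d r₂ β p c i (m + 1)) := by
      rw [labDiag_mul]
      refine labDiag_congr fun t ht => ?_
      rw [clusterExp, if_pos ht, if_pos hm.le, dif_pos hm, ← add_assoc]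
      congr 1
      rw [expNode, expNode, if_pos hm', if_pos hm, segEnd, if_pos hl']
      exact freeDecay_add hd t (o1.trans o2) q1 (q1.trans q2)
    rw [← key]
    simp only [mul_assoc]
    rfl

theorem segEnd_last {S : Schedule} {R : ℕ} (h : S.Adm R d r₂ β φ₀) (i : ℕ) {m : ℕ}
    (hm : m + 1 = (S.cd (d.j₀ + i)).len) : segEnd d i m = clusterStart d (i + 1) := by
  rw [segEnd, h.plan_length, if_neg (by omega)]

/-- On the band the intended cluster is the cluster product. -/
theorem bandFun_prod {S : Schedule} {R : ℕ} (h : S.Adm R d r₂ β φ₀) (p : Param) (i : ℕ)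
    (z : ℕ → ℂ) :
    let c := S.cd (d.j₀ + i)
    segProd (bandFun d r₂ β p c i z) 0 c.len =
      clusterProd c.specs (clusterExp d r₂ β p c i) z := by
  intro c
  obtain ⟨m, hm⟩ : ∃ m, c.len = m + 1 := Nat.exists_eq_succ_of_ne_zero fun e =>
    c.spec.nonempty (List.ofFn_eq_nil_iff.2 e)
  rw [clusterProd_eq, show c.specs.length = c.len by simp [ClusterData.specs], hm,
    bandFun_prefix h p i z m (show m < c.len by omega)]
  refine congrArg₂ (· * ·) rfl (labDiag_congr fun t ht => ?_)
  rw [clusterExp, if_pos ht, if_pos hm.ge, dif_neg (by omega), add_zero]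
  rw [expNode, expNode, if_pos (show m < c.len by omega), if_neg (by omega), segEnd_last h i hm.symm]

theorem clusterFac_inv {a : ℕ → Lbl → ℝ} {A : ℕ → ℝ} {c : ClusterData} {z : ℕ → ℂ}
    (ha : ∀ k ≤ c.len, ∀ t ∈ band, |a k t| ≤ A k)
    (hz : ∀ l : Fin c.len, IsUnit ((c.stage l).spec.bandMat (z l)).det ∧
      ‖((c.stage l).spec.bandMat (z l))⁻¹‖ ≤ 2) (m : ℕ) (hm : m ≤ c.len) :
    ∃ Qi : Matrix BPt BPt ℂ, Qi * segProd (clusterFac a c z) 0 m = 1 ∧
      ‖Qi‖ ≤ 2 ^ m * Real.exp (∑ k ∈ Finset.range m, A k) := by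
  induction m with
  | zero => exact ⟨1, by rw [segProd_self, one_mul], by simpa using norm_one_matrix_le⟩
  | succ m ih =>
    have hm' : m < c.len := hm
    obtain ⟨Qi, hQ, hn⟩ := ih hm'.le
    obtain ⟨hu, hT⟩ := hz ⟨m, hm'⟩
    set T := (c.stage ⟨m, hm'⟩).spec.bandMat (z m)
    refine ⟨T⁻¹ * (labDiag fun t => -a m t) * Qi, ?_, ?_⟩
    · rw [segProd_succ _ (Nat.zero_le m), clusterFac_eq _ _ _ hm', mul_assoc (T⁻¹ * _),
        ← mul_assoc Qi, hQ, one_mul, mul_assoc, ← mul_assoc (labDiag _),
        (labDiag_cancel (a m)).1, one_mul]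
      exact Matrix.nonsing_inv_mul _ hu
    · rw [Finset.sum_range_succ, Real.exp_add, pow_succ]
      have hD := labDiag_norm_le (f := fun t => -a m t) (B := A m) fun t ht => by
        rw [abs_neg]; exact ha m hm'.le t ht
      calc ‖T⁻¹ * (labDiag fun t => -a m t) * Qi‖
          ≤ ‖T⁻¹‖ * ‖labDiag fun t => -a m t‖ * ‖Qi‖ :=
            norm_mul3_le _ _ _
        _ ≤ 2 * Real.exp (A m) * (2 ^ m * Real.exp (∑ k ∈ Finset.range m, A k)) :=
            mul_le_mul (mul_le_mul hT hD (norm_nonneg _) zero_le_two) hn (norm_nonneg _)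
              (mul_nonneg zero_le_two (Real.exp_nonneg _))
        _ = _ := by ring

/-- The product after segment `m` is the growth of its wait times a moderate factor. -/
theorem suffix_gain {S : Schedule} {R : ℕ} (h : S.Adm R d r₂ β φ₀) (p : Param) (K i : ℕ)
    (z : ℕ → ℂ) {Ca : ℝ} (Y : Matrix BPt BPt ℂ) :
    let c := S.cd (d.j₀ + i)
    let a := clusterExp d r₂ β p c i
    let M := clusterMono d r₂ β p c i
    clusterProd c.specs a z * M⁻¹ = Y →
    (∀ k ≤ c.len, ∀ t ∈ band,
      |a k t| ≤ Ca * (expNode d c.len i (k + 1) - expNode d c.len i k) + 1) →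
    (∀ l : Fin c.len, IsUnit ((c.stage l).spec.bandMat (z l)).det ∧
      ‖((c.stage l).spec.bandMat (z l))⁻¹‖ ≤ 2) →
    ∀ m, m + 1 < c.len →
    (∀ t ∈ band, |freeDecay d r₂ β (ctrlStart d i m) (ctrlEnd d i m) t| ≤
      Ca * (ctrlEnd d i m - ctrlStart d i m)) →
    ∃ X : Matrix BPt BPt ℂ,
      segProd (idealFun d r₂ β p c K i z) (m + 1) c.len * (bandLift K * M⁻¹) =
        waitGain d r₂ β K i m * X ∧
      ‖X‖ ≤ 2 ^ (m + 1) * Real.exp (Ca * (ctrlEnd d i m - clusterStart d i) + (m + 1)) * ‖Y‖ := by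
  intro c a M hY ha hz m hm hc
  obtain ⟨Qi, hQ, hn⟩ :=
    clusterFac_inv (A := fun k => Ca * (expNode d c.len i (k + 1) - expNode d c.len i k) + 1)
      ha hz (m + 1) hm.le
  have hl : m < (d.plan (d.j₀ + i)).length := by rw [h.plan_length]; exact hm.trans' (Nat.lt_succ_self m)
  obtain ⟨o1, o2, o3, o4⟩ := seg_order h.good hl
  set fc := freeDecay d r₂ β (ctrlStart d i m) (ctrlEnd d i m)
  set fw := freeDecay d r₂ β (ctrlEnd d i m) (segEnd d i m)
  refine ⟨(labDiag fun t => -fc t) * Qi * Y, ?_, ?_⟩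
  · have hpre : ((labDiag fun t => -fw t) * (labDiag fun t => -fc t) * Qi) *
        segProd (bandFun d r₂ β p c i z) 0 (m + 1) = 1 := by
      rw [bandFun_prefix h p i z m (hm.trans' (Nat.lt_succ_self m)), mul_assoc (_ * _) Qi,
        ← mul_assoc Qi, hQ, one_mul, labDiag_mul, labDiag_mul, ← labDiag_zero]
      refine labDiag_congr fun t _ => ?_
      show -fw t + -fc t + freeDecay d r₂ β (ctrlStart d i m) (segEnd d i m) t = 0
      rw [← freeDecay_add h.good t (o1.trans o2) ((o1.trans o2).trans o3)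
        (((o1.trans o2).trans o3).trans o4)]
      simp only [fw, fc]; ring
    have hsuf : segProd (bandFun d r₂ β p c i z) (m + 1) c.len =
        (labDiag fun t => -fw t) * (labDiag fun t => -fc t) * Qi *
          clusterProd c.specs a z := by
      rw [← bandFun_prod h p i z, ← segProd_split _ (Nat.zero_le (m + 1)) hm.le, ← mul_assoc, hpre,
        one_mul]
    rw [← Matrix.mul_assoc, idealProd_bandLift d r₂ β p c K i z hm.le, hsuf, waitGain, ← hY]
    simp only [Matrix.mul_assoc]
    rfl
  · have hfc : ‖labDiag fun t => -fc t‖ ≤ Real.exp (Ca * (ctrlEnd d i m - ctrlStart d i m)) :=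
      labDiag_norm_le fun t ht => by rw [abs_neg]; exact hc t ht
    have hsum : ∑ k ∈ Finset.range (m + 1),
        (Ca * (expNode d c.len i (k + 1) - expNode d c.len i k) + 1) =
        Ca * (ctrlStart d i m - clusterStart d i) + (m + 1) := by
      rw [Finset.sum_add_distrib, ← Finset.mul_sum, Finset.sum_range_sub (expNode d c.len i)]
      simp [expNode, hm.trans' (Nat.lt_succ_self m)]
    rw [hsum] at hn
    calc ‖(labDiag fun t => -fc t) * Qi * Y‖
        ≤ ‖labDiag fun t => -fc t‖ * ‖Qi‖ * ‖Y‖ :=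
          norm_mul3_le _ _ _
      _ ≤ Real.exp (Ca * (ctrlEnd d i m - ctrlStart d i m)) *
          (2 ^ (m + 1) * Real.exp (Ca * (ctrlStart d i m - clusterStart d i) + (m + 1))) * ‖Y‖ :=
          mul_le_mul_of_nonneg_right (mul_le_mul hfc hn (norm_nonneg _) (Real.exp_nonneg _))
            (norm_nonneg _)
      _ = _ := by
          rw [show Ca * (ctrlEnd d i m - clusterStart d i) + ((m : ℝ) + 1) =
            Ca * (ctrlEnd d i m - ctrlStart d i m) +
              (Ca * (ctrlStart d i m - clusterStart d i) + ((m : ℝ) + 1)) by ring,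
            Real.exp_add (Ca * (ctrlEnd d i m - ctrlStart d i m))]
          ring

end Vale.Agent.P225.Bds
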